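import Vale.Agent.Lib.P331.Basic
import Vale.Agent.Lib.P331.helper20.Rule
import Vale.Agent.Lib.P331.helper51.ExpX
import Vale.Agent.Lib.P331.helper71.Level

/-!
P331: assembly of the one-sample guarantee for the threshold rule.
-/

namespace Vale.Agent.Lib.P331

open Finset

noncomputable section

open Classical

variable {E : Type} [Fintype E] [DecidableEq E]

/-- The gain bound of the seed with number `i`, as a function of the natural number `i`. -/
def gainLB (M : Matroid E) (S V : E → ℝ) (I : Finset E) (i : ℕ) : ℝ :=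
  if i < 4 then EA M S V
  else if i < 10 then E0 M S V
  else topS M S / 2 ^ thrExp i * ((I.filter fun e => topS M S / 2 ^ thrExp i ≤ V e).card : ℝ)

theorem EA_nonneg (M : Matroid E) (S V : E → ℝ) (hV : ∀ e, 0 ≤ V e) : 0 ≤ EA M S V := by
  unfold EA
  apply Finset.sum_nonneg
  intro e _
  split_ifs
  · exact hV e
  · exact le_refl _

omit [DecidableEq E] in
theorem E0_nonneg (M : Matroid E) (S V : E → ℝ) : 0 ≤ E0 M S V := by
  unfold E0
  split_ifs
  · exact topS_nonneg M S
  · exact le_refl _

theorem EA_le_run (M : Matroid E) (J : ℕ) (S V : E → ℝ) (hV : ∀ e, 0 ≤ V e)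
    (r : Fin (J + 10)) (hr : r.val < 4) (l : List E) (hl : ∀ e, e ∈ l) :
    EA M S V ≤ ∑ x ∈ (thrRule M J).run S r V l, V x := by
  by_cases h : ∃ e ∈ NL M, topS M S < V e ∧ ∀ e' ∈ NL M, e' ≠ e → V e' ≤ topS M S
  · obtain ⟨e, he, h1, h2⟩ := h
    have hEA : EA M S V = V e := by
      unfold EA
      rw [Finset.sum_eq_single_of_mem e he]
      · rw [if_pos ⟨h1, h2⟩]
      · intro b hb hbe
        rw [if_neg]
        rintro ⟨_, h4⟩
        have := h4 e he (Ne.symm hbe)
        linarith
    rw [hEA]
    exact helper20_thrRule_strict_ge M J S V hV r hr l e he (hl e) h1 h2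
  · have hEA : EA M S V = 0 := by
      unfold EA
      apply Finset.sum_eq_zero
      intro e he
      rw [if_neg]
      intro h3
      exact h ⟨e, he, h3⟩
    rw [hEA]
    exact Finset.sum_nonneg fun x _ => hV x

theorem E0_le_run (M : Matroid E) (J : ℕ) (S V : E → ℝ) (hV : ∀ e, 0 ≤ V e)
    (r : Fin (J + 10)) (hr4 : 4 ≤ r.val) (hr10 : r.val < 10) (l : List E) (hl : ∀ e, e ∈ l) :
    E0 M S V ≤ ∑ x ∈ (thrRule M J).run S r V l, V x := by
  unfold E0
  split_ifs with h
  · obtain ⟨e, he, h1⟩ := h
    have hI : M.Indep (({e} : Finset E) : Set E) := by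
      have : M.Indep {e} := by
        simpa [NL] using he
      simpa using this
    have h2 := helper20_thrRule_weak_ge M J S V hV r hr4 l hl {e} hI
    have h3 : thrExp r.val = 0 := by
      unfold thrExp
      omega
    rw [h3] at h2
    have h4 : (({e} : Finset E).filter fun x => topS M S / 2 ^ 0 ≤ V x) = {e} := by
      rw [Finset.filter_eq_self]
      intro x hx
      rw [Finset.mem_singleton] at hx
      subst hx
      simpa using h1
    rw [h4] at h2
    simpa using h2
  · exact Finset.sum_nonneg fun x _ => hV x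

theorem gainLB_le_run (M : Matroid E) (J : ℕ) (S V : E → ℝ) (hV : ∀ e, 0 ≤ V e)
    (r : Fin (J + 10)) (l : List E) (hl : ∀ e, e ∈ l) (I : Finset E)
    (hI : M.Indep (I : Set E)) :
    gainLB M S V I r.val ≤ ∑ x ∈ (thrRule M J).run S r V l, V x := by
  unfold gainLB
  split_ifs with h4 h10
  · exact EA_le_run M J S V hV r h4 l hl
  · exact E0_le_run M J S V hV r (by omega) h10 l hl
  · exact helper20_thrRule_weak_ge M J S V hV r (by omega) l hl I hI

theorem sum_gainLB (M : Matroid E) (J : ℕ) (S V : E → ℝ) (I : Finset E) :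
    ∑ r : Fin (J + 10), gainLB M S V I r.val
      = 4 * EA M S V + 6 * E0 M S V
        + ∑ j ∈ Finset.Icc 1 J,
            topS M S / 2 ^ j * ((I.filter fun e => topS M S / 2 ^ j ≤ V e).card : ℝ) := by
  rw [Fin.sum_univ_eq_sum_range (fun i => gainLB M S V I i) (J + 10), add_comm J 10,
    Finset.sum_range_add]
  have h1 : ∑ x ∈ range 10, gainLB M S V I x = 4 * EA M S V + 6 * E0 M S V := by
    simp only [Finset.sum_range_succ, Finset.sum_range_zero, gainLB]
    norm_num
    ring
  have h2 : ∑ x ∈ range J, gainLB M S V I (10 + x)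
      = ∑ j ∈ Finset.Icc 1 J,
          topS M S / 2 ^ j * ((I.filter fun e => topS M S / 2 ^ j ≤ V e).card : ℝ) := by
    have h3 : ∀ x, gainLB M S V I (10 + x)
        = topS M S / 2 ^ (x + 1)
          * ((I.filter fun e => topS M S / 2 ^ (x + 1) ≤ V e).card : ℝ) := by
      intro x
      have hx : thrExp (10 + x) = x + 1 := by
        unfold thrExp
        omega
      unfold gainLB
      rw [if_neg (by omega), if_neg (by omega), hx]
    simp only [h3]
    rw [Finset.range_eq_Ico,
      Finset.sum_Ico_add' (fun j => topS M S / 2 ^ j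
        * ((I.filter fun e => topS M S / 2 ^ j ≤ V e).card : ℝ)) 0 J 1]
    congr 1
  rw [h1, h2]

/-- The one-sample guarantee of the threshold rule, for laws with finite support. -/
theorem thrRule_guarantee (M : Matroid E) (k J : ℕ) (hkJ : k ≤ 2 ^ J)
    (hk : ∀ I : Finset E, M.Indep (I : Set E) → I.card ≤ k)
    {Ω : Type} [Fintype Ω] (p val : E → Ω → ℝ)
    (hp : ∀ e ω, 0 ≤ p e ω) (hp1 : ∀ e, ∑ ω, p e ω = 1) (hval : ∀ e ω, 0 ≤ val e ω)
    (adv : (E → Ω) → (E → Ω) → Fin (J + 10) → List E)
    (hadv : ∀ s v r e, e ∈ adv s v r)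
    (I : (E → Ω) → Finset E) (hI : ∀ v, M.Indep (I v : Set E)) :
    ∑ v : E → Ω, (∏ e, p e (v e)) * ∑ e ∈ I v, val e (v e)
      ≤ ((J : ℝ) + 10) *
        ∑ s : E → Ω, ∑ v : E → Ω, ∑ r : Fin (J + 10),
          (∏ e, p e (s e)) * (∏ e, p e (v e))
            * (1 / (Fintype.card (Fin (J + 10)) : ℝ)) *
            ∑ e ∈ (thrRule M J).run (fun e => val e (s e)) r
              (fun e => val e (v e)) (adv s v r), val e (v e) := by
  have hVn : ∀ (v : E → Ω) (e : E), 0 ≤ vals val v e := fun v e => hval e (v e)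
  have hw : ∀ s v : E → Ω, 0 ≤ wt p s * wt p v :=
    fun s v => mul_nonneg (wt_nonneg p hp s) (wt_nonneg p hp v)
  -- the prophet side as a double sum
  have hL : ∑ v : E → Ω, (∏ e, p e (v e)) * ∑ e ∈ I v, val e (v e)
      = ∑ s : E → Ω, ∑ v : E → Ω, wt p s * wt p v * ∑ e ∈ I v, vals val v e := by
    have h1 : ∀ s : E → Ω, ∑ v : E → Ω, wt p s * wt p v * ∑ e ∈ I v, vals val v e
        = wt p s * ∑ v : E → Ω, wt p v * ∑ e ∈ I v, vals val v e := by
      intro s
      rw [Finset.mul_sum]
      apply Finset.sum_congr rfl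
      intro v _
      ring
    simp only [h1]
    rw [← Finset.sum_mul, wt_sum_one p hp1, one_mul]
    rfl
  -- the rule side as a double sum
  have hR : ((J : ℝ) + 10) *
        ∑ s : E → Ω, ∑ v : E → Ω, ∑ r : Fin (J + 10),
          (∏ e, p e (s e)) * (∏ e, p e (v e)) * (1 / (Fintype.card (Fin (J + 10)) : ℝ)) *
            ∑ e ∈ (thrRule M J).run (fun e => val e (s e)) r
              (fun e => val e (v e)) (adv s v r), val e (v e)
      = ∑ s : E → Ω, ∑ v : E → Ω, wt p s * wt p v *
          ∑ r : Fin (J + 10), ∑ e ∈ (thrRule M J).run (vals val s) r (vals val v) (adv s v r),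
            vals val v e := by
    rw [Finset.mul_sum]
    apply Finset.sum_congr rfl
    intro s _
    rw [Finset.mul_sum]
    apply Finset.sum_congr rfl
    intro v _
    rw [Finset.mul_sum, Finset.mul_sum]
    apply Finset.sum_congr rfl
    intro r _
    have hc : (Fintype.card (Fin (J + 10)) : ℝ) = (J : ℝ) + 10 := by
      simp
    rw [hc]
    have hpos : (J : ℝ) + 10 ≠ 0 := by positivity
    unfold wt vals
    field_simp
  rw [hL, hR]
  -- pointwise chain
  have hpt1 : ∀ s v : E → Ω, ∑ e ∈ I v, vals val v e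
      ≤ topS M (vals val s)
        + ∑ j ∈ Finset.Icc 1 J, topS M (vals val s) / 2 ^ j
            * (((I v).filter fun e => topS M (vals val s) / 2 ^ j ≤ vals val v e).card : ℝ)
        + ∑ e ∈ NL M, (if topS M (vals val s) < vals val v e then vals val v e else 0) :=
    fun s v => level_ineq M k J hkJ (I v) (hI v) (hk (I v) (hI v)) (vals val v) (hVn v)
      (topS M (vals val s)) (topS_nonneg M _)
  have hpt2 : ∀ s v : E → Ω,
      4 * EA M (vals val s) (vals val v) + 6 * E0 M (vals val s) (vals val v)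
        + ∑ j ∈ Finset.Icc 1 J, topS M (vals val s) / 2 ^ j
            * (((I v).filter fun e => topS M (vals val s) / 2 ^ j ≤ vals val v e).card : ℝ)
      ≤ ∑ r : Fin (J + 10), ∑ e ∈ (thrRule M J).run (vals val s) r (vals val v) (adv s v r),
          vals val v e := by
    intro s v
    rw [← sum_gainLB M J (vals val s) (vals val v) (I v)]
    apply Finset.sum_le_sum
    intro r _
    exact gainLB_le_run M J (vals val s) (vals val v) (hVn v) r (adv s v r) (hadv s v r)
      (I v) (hI v)
  have hX := helper51_exp_X_le M p val hp hval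
  have hT := exp_T_le M p val hp hval
  -- abbreviations for the double sums
  have e1 : ∑ s : E → Ω, ∑ v : E → Ω, wt p s * wt p v * ∑ e ∈ I v, vals val v e
      ≤ ∑ s : E → Ω, ∑ v : E → Ω, wt p s * wt p v * topS M (vals val s)
        + ∑ s : E → Ω, ∑ v : E → Ω, wt p s * wt p v *
            ∑ j ∈ Finset.Icc 1 J, topS M (vals val s) / 2 ^ j
              * (((I v).filter fun e => topS M (vals val s) / 2 ^ j ≤ vals val v e).card : ℝ)
        + ∑ s : E → Ω, ∑ v : E → Ω, wt p s * wt p v *
            (∑ e ∈ NL M, if topS M (vals val s) < val e (v e) then val e (v e) else 0) := by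
    rw [← Finset.sum_add_distrib, ← Finset.sum_add_distrib]
    apply Finset.sum_le_sum
    intro s _
    rw [← Finset.sum_add_distrib, ← Finset.sum_add_distrib]
    apply Finset.sum_le_sum
    intro v _
    rw [← mul_add, ← mul_add]
    exact mul_le_mul_of_nonneg_left (hpt1 s v) (hw s v)
  have e2 : 4 * ∑ s : E → Ω, ∑ v : E → Ω, wt p s * wt p v * EA M (vals val s) (vals val v)
        + 6 * ∑ s : E → Ω, ∑ v : E → Ω, wt p s * wt p v * E0 M (vals val s) (vals val v)
        + ∑ s : E → Ω, ∑ v : E → Ω, wt p s * wt p v *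
            ∑ j ∈ Finset.Icc 1 J, topS M (vals val s) / 2 ^ j
              * (((I v).filter fun e => topS M (vals val s) / 2 ^ j ≤ vals val v e).card : ℝ)
      ≤ ∑ s : E → Ω, ∑ v : E → Ω, wt p s * wt p v *
          ∑ r : Fin (J + 10), ∑ e ∈ (thrRule M J).run (vals val s) r (vals val v) (adv s v r),
            vals val v e := by
    rw [Finset.mul_sum, Finset.mul_sum, ← Finset.sum_add_distrib, ← Finset.sum_add_distrib]
    apply Finset.sum_le_sum
    intro s _
    rw [Finset.mul_sum, Finset.mul_sum, ← Finset.sum_add_distrib, ← Finset.sum_add_distrib]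
    apply Finset.sum_le_sum
    intro v _
    have := mul_le_mul_of_nonneg_left (hpt2 s v) (hw s v)
    linarith
  linarith

end

end Vale.Agent.Lib.P331
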