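import Vale.Agent.Lib.P331.Events

/-!
P331: basic facts about the largest non-loop sample and about the product weights.
-/

namespace Vale.Agent.Lib.P331

open Finset

noncomputable section

open Classical

variable {E : Type} [Fintype E] [DecidableEq E]

omit [DecidableEq E] in
theorem topS_eq (M : Matroid E) (S : E → ℝ) :
    topS M S = (((NL M).sup fun e => (S e).toNNReal : NNReal) : ℝ) := by
  unfold topS NL
  congr 2

omit [DecidableEq E] in
theorem topS_nonneg (M : Matroid E) (S : E → ℝ) : 0 ≤ topS M S := by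
  rw [topS_eq]
  exact NNReal.coe_nonneg _

omit [DecidableEq E] in
theorem le_topS (M : Matroid E) (S : E → ℝ) {e : E} (he : e ∈ NL M) : S e ≤ topS M S := by
  rw [topS_eq]
  have h1 : (S e).toNNReal ≤ (NL M).sup fun e => (S e).toNNReal :=
    Finset.le_sup (f := fun e => (S e).toNNReal) he
  calc S e ≤ ((S e).toNNReal : ℝ) := Real.le_coe_toNNReal _
    _ ≤ _ := by exact_mod_cast h1

omit [DecidableEq E] in
theorem topS_le (M : Matroid E) (S : E → ℝ) {c : ℝ} (hc : 0 ≤ c) (h : ∀ e ∈ NL M, S e ≤ c) :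
    topS M S ≤ c := by
  rw [topS_eq]
  have h1 : ((NL M).sup fun e => (S e).toNNReal) ≤ c.toNNReal := by
    apply Finset.sup_le
    intro e he
    exact Real.toNNReal_le_toNNReal (h e he)
  calc (((NL M).sup fun e => (S e).toNNReal : NNReal) : ℝ) ≤ ((c.toNNReal : NNReal) : ℝ) := by
        exact_mod_cast h1
    _ = c := Real.coe_toNNReal _ hc

omit [DecidableEq E] in
theorem exists_eq_topS (M : Matroid E) (S : E → ℝ) (hS : ∀ e, 0 ≤ S e)
    (hne : (NL M).Nonempty) : ∃ e ∈ NL M, S e = topS M S := by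
  obtain ⟨e, he, hsup⟩ := Finset.exists_mem_eq_sup (NL M) hne (fun e => (S e).toNNReal)
  refine ⟨e, he, ?_⟩
  rw [topS_eq, hsup]
  exact (Real.coe_toNNReal _ (hS e)).symm

omit [DecidableEq E] in
theorem topS_eq_zero (M : Matroid E) (S : E → ℝ) (h : NL M = ∅) : topS M S = 0 := by
  rw [topS_eq, h]
  simp

omit [DecidableEq E] in
theorem wt_nonneg {Ω : Type} (p : E → Ω → ℝ) (hp : ∀ e ω, 0 ≤ p e ω) (s : E → Ω) :
    0 ≤ wt p s :=
  Finset.prod_nonneg fun e _ => hp e (s e)

theorem wt_sum_one {Ω : Type} [Fintype Ω] (p : E → Ω → ℝ) (hp1 : ∀ e, ∑ ω, p e ω = 1) :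
    ∑ s : E → Ω, wt p s = 1 := by
  have h := Finset.prod_univ_sum (fun (_ : E) => (Finset.univ : Finset Ω)) (fun e ω => p e ω)
  rw [Fintype.piFinset_univ] at h
  unfold wt
  rw [← h]
  simp [hp1]

/-- Swapping the atoms of one element between the sample vector and the value vector. -/
def swapAt {Ω : Type} (e : E) (x : (E → Ω) × (E → Ω)) : (E → Ω) × (E → Ω) :=
  (Function.update x.1 e (x.2 e), Function.update x.2 e (x.1 e))

omit [Fintype E] in
theorem swapAt_swapAt {Ω : Type} (e : E) (x : (E → Ω) × (E → Ω)) :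
    swapAt e (swapAt e x) = x := by
  obtain ⟨s, v⟩ := x
  simp only [swapAt]
  ext f
  · by_cases hf : f = e
    · subst hf; simp
    · simp [Function.update_of_ne hf]
  · by_cases hf : f = e
    · subst hf; simp
    · simp [Function.update_of_ne hf]

theorem wt_swapAt {Ω : Type} (p : E → Ω → ℝ) (e : E) (s v : E → Ω) :
    wt p (Function.update s e (v e)) * wt p (Function.update v e (s e)) = wt p s * wt p v := by
  unfold wt
  rw [← Finset.mul_prod_erase univ _ (Finset.mem_univ e),
    ← Finset.mul_prod_erase univ (fun f => p f (Function.update v e (s e) f)) (Finset.mem_univ e),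
    ← Finset.mul_prod_erase univ (fun f => p f (s f)) (Finset.mem_univ e),
    ← Finset.mul_prod_erase univ (fun f => p f (v f)) (Finset.mem_univ e)]
  have h1 : ∏ f ∈ univ.erase e, p f (Function.update s e (v e) f)
      = ∏ f ∈ univ.erase e, p f (s f) := by
    apply Finset.prod_congr rfl
    intro f hf
    rw [Function.update_of_ne (Finset.ne_of_mem_erase hf)]
  have h2 : ∏ f ∈ univ.erase e, p f (Function.update v e (s e) f)
      = ∏ f ∈ univ.erase e, p f (v f) := by
    apply Finset.prod_congr rfl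
    intro f hf
    rw [Function.update_of_ne (Finset.ne_of_mem_erase hf)]
  rw [h1, h2]
  simp only [Function.update_self]
  ring

theorem sum_swap {Ω : Type} [Fintype Ω] (p : E → Ω → ℝ) (g : (E → Ω) → (E → Ω) → ℝ) (e : E) :
    ∑ s : E → Ω, ∑ v : E → Ω, wt p s * wt p v * g s v
      = ∑ s : E → Ω, ∑ v : E → Ω,
          wt p s * wt p v * g (Function.update s e (v e)) (Function.update v e (s e)) := by
  rw [← Fintype.sum_prod_type', ← Fintype.sum_prod_type']
  let φ : (E → Ω) × (E → Ω) ≃ (E → Ω) × (E → Ω) :=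
    ⟨swapAt e, swapAt e, swapAt_swapAt e, swapAt_swapAt e⟩
  rw [← Equiv.sum_comp φ]
  apply Finset.sum_congr rfl
  intro x _
  obtain ⟨s, v⟩ := x
  show wt p (Function.update s e (v e)) * wt p (Function.update v e (s e)) *
      g (Function.update s e (v e)) (Function.update v e (s e)) = _
  rw [wt_swapAt]

end

end Vale.Agent.Lib.P331
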