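import Mathlib

/-!
P331: online rules with one sample per element, and a threshold rule.

* `OnlineRule E R` : an online procedure with a finite memory type of its own choice: from the
  samples and the seed it computes its initial memory; when an element arrives with its value
  it returns its decision (accept or reject) and its new memory.
* `OnlineRule.run rule S r V l` : the set of elements accepted when the samples are `S`, the
  seed is `r`, the values are `V` and the elements arrive in the order of the list `l`.
* `thrRule M J` : the threshold rule used for the matroid `M`, with seed type `Fin (J + 10)`.
-/

namespace Vale.Agent.Lib.P331

open Finset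

/-- An online rule on the ground set `E` with seed type `R`.  The memory type `σ` is chosen
by the rule.  `init S r` is the memory after the rule has received the samples `S` and the
seed `r`; `step m e x` is the pair (decision, new memory) when the element `e` arrives with
value `x` while the memory is `m`. -/
structure OnlineRule (E R : Type) where
  σ : Type
  init : (E → ℝ) → R → σ
  step : σ → E → ℝ → Bool × σ

namespace OnlineRule

variable {E R : Type} [DecidableEq E]

/-- The set of elements accepted by the rule, started in memory `m`, when the elements of the
list `l` arrive one at a time in the order of `l`, each `e` with its value `V e`. -/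
def go (rule : OnlineRule E R) (V : E → ℝ) : List E → rule.σ → Finset E
  | [], _ => ∅
  | e :: l, m =>
    if (rule.step m e (V e)).1 then insert e (go rule V l (rule.step m e (V e)).2)
    else go rule V l (rule.step m e (V e)).2

/-- The set of elements accepted by the rule with samples `S`, seed `r`, values `V` and
arrival order `l`. -/
def run (rule : OnlineRule E R) (S : E → ℝ) (r : R) (V : E → ℝ) (l : List E) : Finset E :=
  rule.go V l (rule.init S r)

end OnlineRule

section thr

variable {E : Type} [Fintype E] [DecidableEq E]

open Classical in
/-- The largest sample of an element that is not a loop of `M` (zero if there is none; samples
are nonnegative in all uses). -/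
noncomputable def topS (M : Matroid E) (S : E → ℝ) : ℝ :=
  ((univ.filter fun e => M.Indep {e}).sup fun e => (S e).toNNReal : NNReal)

/-- Memory of the threshold rule: strict or weak comparison, the threshold, and the set
accepted so far. -/
structure ThrMem (E : Type) where
  strict : Bool
  thr : ℝ
  acc : Finset E

open Classical in
/-- One arrival for the threshold rule: `e` is accepted when its value passes the threshold
and the accepted set stays independent. -/
noncomputable def thrStep (M : Matroid E) (m : ThrMem E) (e : E) (x : ℝ) : Bool × ThrMem E :=
  if (if m.strict then m.thr < x else m.thr ≤ x) ∧ M.Indep (insert e (m.acc : Set E)) then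
    (true, ⟨m.strict, m.thr, insert e m.acc⟩)
  else (false, m)

/-- The exponent of the threshold for the seed `r`: `0` for `r < 10`, and `r - 9` otherwise. -/
def thrExp (r : ℕ) : ℕ := r - 9

/-- The threshold rule for `M` with `J + 10` equally likely seeds: seeds `0, 1, 2, 3` accept
values strictly above the largest non-loop sample `T`; seeds `4, ..., 9` accept values at least
`T`; the seed `9 + j` (`1 ≤ j ≤ J`) accepts values at least `T / 2 ^ j`; in all cases an
element is accepted only if the accepted set stays independent. -/
noncomputable def thrRule (M : Matroid E) (J : ℕ) : OnlineRule E (Fin (J + 10)) where
  σ := ThrMem E
  init := fun S r => ⟨decide (r.val < 4), topS M S / 2 ^ thrExp r.val, ∅⟩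
  step := thrStep M

end thr

end Vale.Agent.Lib.P331
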