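import Vale.Agent.Lib.P331.Defs

/-!
P331: the quantities used in the analysis of the threshold rule.

* `NL M` : the elements of `E` that are not loops of `M`.
* `wt p s` : the probability of the atom vector `s` under the product of the laws `p e`.
* `vals val s` : the vector of real values of the atom vector `s`.
* `E0`, `EA` : the pointwise gains of the weak mode at threshold `T` and of the strict mode.
-/

namespace Vale.Agent.Lib.P331

open Finset

noncomputable section

open Classical

variable {E : Type} [Fintype E] [DecidableEq E]

/-- The elements that are not loops of `M`. -/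
def NL (M : Matroid E) : Finset E := univ.filter fun e => M.Indep {e}

/-- Probability weight of an atom vector. -/
def wt {Ω : Type} (p : E → Ω → ℝ) (s : E → Ω) : ℝ := ∏ e, p e (s e)

/-- The real values of an atom vector. -/
def vals {Ω : Type} (val : E → Ω → ℝ) (s : E → Ω) : E → ℝ := fun e => val e (s e)

/-- Gain of the weak mode at threshold `T`: `T` if some non-loop value is at least `T`. -/
def E0 (M : Matroid E) (S V : E → ℝ) : ℝ :=
  if ∃ e ∈ NL M, topS M S ≤ V e then topS M S else 0

/-- Gain of the strict mode: the value of the unique non-loop element above `T`, if any. -/
def EA (M : Matroid E) (S V : E → ℝ) : ℝ :=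
  ∑ e ∈ NL M, if topS M S < V e ∧ ∀ e' ∈ NL M, e' ≠ e → V e' ≤ topS M S then V e else 0

end

end Vale.Agent.Lib.P331
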